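import Vale.Agent.P269.G1.Conc
import Vale.Agent.P269.H597.Final

/-!
# [c9]: `om_1` is constant, and `de_1 = 0`
-/

namespace Vale.Agent.P269.G1.H246

open Finset.HasAntidiagonal (antidiagonal)
open Vale.Agent.P269.CI Vale.Agent.P269.H597

section gen

variable {R A O : Type*} [CommRing R] [Algebra ℚ R] [CommRing A] [Algebra R A]
    [Ring O] [Algebra R O]

theorem om_one (S : Frob R A O) : S.om 1 =
    -((1 / 4 : ℚ) • S.str (S.mu * S.mu)) + (1 / 24 : ℚ) • (S.rho • S.str 1) := by
  unfold Frob.om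
  rw [Finset.Nat.antidiagonal_succ]
  simp [S.d_one]

end gen

variable {X : CompleteIntersection} {F : ℕ → ℕ → List (Ins X) → ℂ}

variable (X) in
/-- constants -/
noncomputable def cstH : ℂ →+* RR X := (MvPowerSeries.C (σ := Fin (X.dim + 1))).comp PowerSeries.C

theorem cst_eq (c : ℂ) : cst X c = cstH X c := rfl

variable (hF : IsGW X F) (h1 : IsGenusOne F)

theorem trace_diag (c : Fin (X.dim + 1) → RR X) (T : Module.End (RR X) (AA hF h1))
    (hT : ∀ (x : AA hF h1) k, T x k = c k * x k) :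
    LinearMap.trace (RR X) (AA hF h1) T = ∑ k, c k := by
  rw [LinearMap.trace_eq_matrix_trace (RR X) (QA.bas (consts hF h1)), Matrix.trace]
  refine Finset.sum_congr rfl fun i _ => ?_
  rw [Matrix.diag_apply, LinearMap.toMatrix_apply]
  change T (QA.bas (consts hF h1) i) i = c i
  rw [hT, QA.bas_apply, if_pos rfl, mul_one]

theorem str_eq (f : Ix X → ℂ) : str X f =
    ∑ k, f (Sum.inl k) + (-1) ^ X.dim * ∑ v, f (Sum.inr v) := by
  unfold str
  rw [Fintype.sum_sum_type, Finset.mul_sum]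
  congr 1
  · refine Finset.sum_congr rfl fun k _ => ?_
    change sgn false false * _ = _
    simp [sgn]
  · refine Finset.sum_congr rfl fun v _ => ?_
    rw [sgn_eq, sg_par]

theorem strO_mu : strO hF h1 (muO hF h1 * muO hF h1) = cst X (str X fun a => mu X a ^ 2) := by
  rw [str_eq, cst_eq, map_add (cstH X), map_mul (cstH X), map_sum (cstH X), map_sum (cstH X)]
  change LinearMap.trace (RR X) (AA hF h1) ((muO hF h1).1 * (muO hF h1).1) +
    cst X ((-1) ^ X.dim) * ∑ v, (muO hF h1).2 v * (muO hF h1).2 v = _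
  rw [trace_diag hF h1 (fun k => cst X (mu X (Sum.inl k) ^ 2))]
  · congr 1
    rw [cst_eq]
    congr 1
    refine Finset.sum_congr rfl fun v _ => ?_
    change cst X (mu X (Sum.inr v)) * cst X (mu X (Sum.inr v)) = _
    rw [cst_eq, ← map_mul, sq]
  · intro x k
    have hm : ∀ (y : AA hF h1), (muO hF h1).1 y k = cst X (mu X (Sum.inl k)) * y k := by
      intro y
      change ((k : ℕ) : RR X) * y k - cst X ((X.dim : ℂ) / 2) * y k = _
      have h2 : cst X (mu X (Sum.inl k)) = ((k : ℕ) : RR X) - cst X ((X.dim : ℂ) / 2) := by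
        rw [cst_eq, cst_eq]
        change cstH X (((k : ℕ) : ℂ) - (X.dim : ℂ) / 2) = _
        rw [map_sub, map_natCast]
      rw [h2]
      ring
    change (muO hF h1).1 ((muO hF h1).1 x) k = _
    rw [hm, hm, cst_eq, cst_eq, map_pow]
    ring

theorem strO_one : strO hF h1 1 = cst X (str X fun _ => 1) := by
  rw [str_eq, cst_eq, map_add (cstH X), map_mul (cstH X), map_sum (cstH X), map_sum (cstH X)]
  change LinearMap.trace (RR X) (AA hF h1) 1 +
    cst X ((-1) ^ X.dim) * ∑ v : X.Prim, (1 : RR X) = _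
  rw [trace_diag hF h1 (fun _ => 1)]
  · simp only [map_one, cst_eq]
  · intro x k
    change x k = 1 * x k
    rw [one_mul]

theorem om_one_eq : (frob hF h1).om 1 =
    cst X (-(1 / 4) * (str X fun a => mu X a ^ 2) + X.dim / 48 * (str X fun _ => 1)) := by
  rw [om_one]
  change -((1 / 4 : ℚ) • strO hF h1 (muO hF h1 * muO hF h1)) +
    (1 / 24 : ℚ) • (((X.dim : ℚ) / 2) • strO hF h1 1) = _
  rw [strO_mu, strO_one, cst_eq, cst_eq, cst_eq, ← map_rat_smul, ← map_rat_smul, ← map_rat_smul,
    ← map_neg, ← map_add]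
  congr 1
  rw [Rat.smul_def, Rat.smul_def, Rat.smul_def]
  push_cast
  ring

/-- **[c9]** -/
theorem frob_om_one (x : AA hF h1) : (frob hF h1).der x ((frob hF h1).om 1) = 0 := by
  rw [om_one_eq]
  exact der_cst hF h1 x _

/-- **[c9]** -/
theorem frob_de_one (_ : 3 ≤ X.dim) : (frob hF h1).de 1 = 0 := by
  unfold Frob.de
  rw [om_one_eq, pow_one]
  change GG hF h1 (Eu hF h1) - _ = 0
  rw [G_E, cst_eq, cst_eq, ← map_sub, H861.euler, H861.libgober_wood]
  convert map_zero (cstH X)
  ring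

end Vale.Agent.P269.G1.H246
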